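import Vale.Agent.P269HD.Abs
import Vale.Agent.P275FM.Kah

/-!
# P269, row H6: de Rham bases of pure type and Dolbeault cohomology of compact Kaehler manifolds
-/

open scoped Manifold ContDiff Topology Matrix
open Finset
open Vale.Agent.P272.K Vale.Agent.P281Z.Hg Vale.Agent.P275MC Vale.Agent.P275FM
open Vale.Agent.P275AR (ty del)

noncomputable section

namespace Vale.Agent.P269HD

variable {d : ℕ} {M : Type} [TopologicalSpace M] [ChartedSpace (Cm d) M]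
  [IsManifold 𝓘(ℂ, Cm d) ω M] {w : Rw d M (Matrix (Fin d) (Fin d) ℂ)}

/-- `u` is of pure type `(p, q)` -/
def Pure (p q : ℕ) (u : SF d M) : Prop := ty d M p u = u ∧ pj d M (p + q : ℕ) u = u

variable (d M) in
/-- the projection on the type `(p, q)` -/
def pq (p q : ℕ) : Module.End ℂ (SF d M) := ty d M p ∘ₗ pj d M (p + q : ℕ)

theorem pq_apply (p q : ℕ) (u : SF d M) : pq d M p q u = ty d M p (pj d M (p + q : ℕ) u) := rfl

theorem pure_pq (p q : ℕ) (u : SF d M) : Pure p q (pq d M p q u) :=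
  ⟨by rw [pq_apply, gr_ty.mul, if_pos rfl],
    by rw [pq_apply, ← ty_pj, gr_pj.mul, if_pos rfl]⟩

theorem Pure.pq_self {p q : ℕ} {u : SF d M} (h : Pure p q u) : pq d M p q u = u := by
  rw [pq_apply, h.2, h.1]

theorem Pure.ty_eq {p q : ℕ} {u : SF d M} (h : Pure p q u) (k : ℕ) :
    ty d M k u = if k = p then u else 0 := by
  rw [← h.1, gr_ty.mul]

theorem Pure.pj_eq {p q : ℕ} {u : SF d M} (h : Pure p q u) (k : ℕ) :
    pj d M k u = if k = p + q then u else 0 := by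
  rw [← h.2, gr_pj.mul]

theorem Pure.pq_eq {p q : ℕ} {u : SF d M} (h : Pure p q u) (p' q' : ℕ) :
    pq d M p' q' u = if p' = p ∧ q' = q then u else 0 := by
  rw [pq_apply, h.pj_eq]
  by_cases h1 : p' = p
  · subst h1
    by_cases h2 : q' = q
    · rw [if_pos (by rw [h2]), h.1, if_pos ⟨rfl, h2⟩]
    · rw [if_neg (by omega), map_zero, if_neg fun k => h2 k.2]
  · rw [if_neg (c := _ ∧ _) fun k => h1 k.1]
    split_ifs
    · rw [h.ty_eq, if_neg h1]
    · exact map_zero _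

theorem Pure.pr_eq {p q : ℕ} {u : SF d M} (h : Pure p q u) :
    pr d M u = (-1 : ℂ) ^ (p + q) • u := by
  rw [← h.2, pr_pj]

theorem Pure.zero (p q : ℕ) : Pure p q (0 : SF d M) := ⟨map_zero _, map_zero _⟩

theorem Pure.add {p q : ℕ} {u v : SF d M} (h : Pure p q u) (h' : Pure p q v) :
    Pure p q (u + v) := ⟨by rw [map_add, h.1, h'.1], by rw [map_add, h.2, h'.2]⟩

theorem Pure.smul {p q : ℕ} {u : SF d M} (h : Pure p q u) (c : ℂ) : Pure p q (c • u) :=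
  ⟨by rw [map_smul, h.1], by rw [map_smul, h.2]⟩

theorem Pure.mul {p q p' q' : ℕ} {u v : SF d M} (h : Pure p q u) (h' : Pure p' q' v) :
    Pure (p + p') (q + q') (wd u v) := by
  refine ⟨ty_wd h.1 h'.1, ?_⟩
  have h1 := pj_wd (s := p + q) (y := u) (h.2 ▸ pj_mem _ u) (p' + q') v
  rwa [h'.2, show p' + q' + (p + q) = p + p' + (q + q') by omega] at h1

theorem sum_pq (u : SF d M) :
    ∃ N, ∑ x ∈ range N ×ˢ range N, ty d M x.1 (pj d M (x.2 : ℕ) u) = u := by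
  obtain ⟨N, hN⟩ := gr_pj (d := d) (M := M).sum
  refine ⟨N + d + 1, ?_⟩
  rw [sum_product]
  have h1 : ∑ q ∈ range (N + d + 1), pj d M (q : ℕ) u = u := by
    refine Eq.trans (sum_subset (range_subset_range.2 (by omega)) fun q _ hq => ?_).symm (hN u)
    rw [← hN u, map_sum]
    exact sum_eq_zero fun j hj => by
      rw [gr_pj.mul, if_neg fun k => hq (by rwa [k])]
  simp only [← map_sum, h1]
  refine Eq.trans (sum_subset (range_subset_range.2 (by omega)) fun q _ hq => ?_).symm (ty_sum u)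
  exact P275AR.ty_big (by simpa [Nat.succ_le_iff] using hq) u

theorem ch_pj_dlb (m : ℕ) : Ch (dlb d M) (dlb d M) (pj d M m) :=
  ⟨fun z hz => by rw [← pj_dlb, hz, map_zero],
    fun y => ⟨pj d M (m - 1) y, by rw [← pj_dlb, sub_add_cancel]⟩⟩

theorem ch_pj_dd (m : ℕ) : Ch (dd d M) (dd d M) (pj d M m) :=
  ⟨fun z hz => by rw [← pj_dd, hz, map_zero],
    fun y => ⟨pj d M (m - 1) y, by rw [← pj_dd, sub_add_cancel]⟩⟩

theorem ch_ty_dlb (p : ℕ) : Ch (dlb d M) (dlb d M) (ty d M p) :=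
  .of_comm fun u => (ty_dlb p u).symm

theorem ch_pq_dlb (p q : ℕ) : Ch (dlb d M) (dlb d M) (pq d M p q) :=
  (ch_ty_dlb p).comp (ch_pj_dlb _)

theorem ch_pr_dlb : Ch (dlb d M) (dlb d M) (pr d M) := .of_anti dlb_pr

theorem ch_pr_dd : Ch (dd d M) (dd d M) (pr d M) := .of_anti dd_pr

variable (d M) in
/-- the forms killed by both operators -/
def Zc : Submodule ℂ (SF d M) := LinearMap.ker (del d M) ⊓ LinearMap.ker (dlb d M)

theorem mem_Zc {u : SF d M} : u ∈ Zc d M ↔ del d M u = 0 ∧ dlb d M u = 0 := Iff.rfl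

theorem Zc_dd {u : SF d M} (h : u ∈ Zc d M) : dd d M u = 0 := by
  rw [← del_add_dlb, h.1, h.2, add_zero]

theorem Zc_ty {u : SF d M} (h : u ∈ Zc d M) (p : ℕ) : ty d M p u ∈ Zc d M :=
  mem_Zc.2 ⟨by rw [← ty_del, h.1, map_zero], by rw [← ty_dlb, h.2, map_zero]⟩

theorem Zc_pj {u : SF d M} (h : u ∈ Zc d M) (m : ℤ) : pj d M m u ∈ Zc d M :=
  mem_Zc.2 ⟨by rw [← pj_del, h.1, map_zero], by rw [← pj_dlb, h.2, map_zero]⟩

theorem Zc_pq {u : SF d M} (h : u ∈ Zc d M) (p q : ℕ) : pq d M p q u ∈ Zc d M :=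
  Zc_ty (Zc_pj h _) _

theorem Pure.mem_Zc {p q : ℕ} {u : SF d M} (h : Pure p q u) (hu : dd d M u = 0) : u ∈ Zc d M :=
  del_of_ty h.1 hu

variable [T2Space M] [CompactSpace M] (hw : IsKahler w)
include hw

theorem ex_Zc_dlb {z : SF d M} (hz : dlb d M z = 0) : ∃ g ∈ Zc d M, ∃ y, z = g + dlb d M y := by
  obtain ⟨H, -, h1, -, h2, -⟩ := (kah_all hw).2.1
  obtain ⟨g, hg, e⟩ := h2 z hz
  exact ⟨g, h1 g hg, e⟩

theorem ex_Zc_dd {z : SF d M} (hz : dd d M z = 0) : ∃ g ∈ Zc d M, ∃ y, z = g + dd d M y := by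
  obtain ⟨H, -, h1, -, -, h2, -⟩ := (kah_all hw).2.1
  obtain ⟨g, hg, e⟩ := h2 z hz
  exact ⟨g, h1 g hg, e⟩

theorem dd_of_dlb {z y : SF d M} (hz : z ∈ Zc d M) (e : z = dlb d M y) :
    ∃ y', z = dd d M y' := by
  obtain ⟨c, hc⟩ := (kah_all hw).1.l1 y (e ▸ hz.1)
  exact ⟨dlb d M c, by rw [e, hc, ← del_add_dlb, dlb_dlb, add_zero]⟩

theorem dlb_of_dd {z y : SF d M} (hz : z ∈ Zc d M) (e : z = dd d M y) :
    ∃ y', z = dlb d M y' := by
  obtain ⟨H, -, h1, -, h2, -, h3⟩ := (kah_all hw).2.1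
  obtain ⟨g, hg, b, hb⟩ := h2 z hz.2
  obtain ⟨c, hc⟩ := dd_of_dlb hw ((Zc d M).sub_mem hz (h1 g hg)) (y := b) (by rw [hb]; abel)
  have h4 := h3 g hg (y - c) (.inr (.inr (by rw [map_sub, ← e, ← hc]; abel)))
  exact ⟨b, by rw [hb, h4, zero_add]⟩

/-- **closed representatives of pure type of the Dolbeault classes** -/
theorem rep {p q : ℕ} {z : SF d M} (hp : Pure p q z) (hz : dlb d M z = 0) :
    ∃ a b, Pure p q a ∧ del d M a = 0 ∧ dlb d M a = 0 ∧ z = a + dlb d M b := by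
  obtain ⟨g, hg, y, e⟩ := ex_Zc_dlb hw hz
  obtain ⟨y', hy⟩ := (ch_pq_dlb p q).bd y
  exact ⟨_, y', pure_pq p q g, (Zc_pq hg p q).1, (Zc_pq hg p q).2,
    by rw [← hp.pq_self, e, map_add, hy]⟩

/-- the same for the holomorphic degree only -/
theorem rep_ty {p : ℕ} {z : SF d M} (hp : ty d M p z = z) (hz : dlb d M z = 0) :
    ∃ a b, ty d M p a = a ∧ ty d M p b = b ∧ del d M a = 0 ∧ dlb d M a = 0 ∧
      z = a + dlb d M b := by
  obtain ⟨g, hg, y, e⟩ := ex_Zc_dlb hw hz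
  refine ⟨ty d M p g, ty d M p y, ?_, ?_, (Zc_ty hg p).1, (Zc_ty hg p).2,
    by rw [← hp, e, map_add, ty_dlb]⟩ <;> rw [gr_ty.mul, if_pos rfl]

variable {ι : Type*} [Fintype ι] {φ : ι → SF d M} {p q : ι → ℕ}

/-- a de Rham basis of forms killed by both operators is a Dolbeault basis -/
theorem Bas.dlb (h : Bas (dd d M) φ) (hφ : ∀ a, φ a ∈ Zc d M) : Bas (dlb d M) φ :=
  h.transfer (Zc d M) hφ (fun _ hz => hz.2) (fun _ => Zc_dd) (fun _ hz _ => dd_of_dlb hw hz)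
    (fun _ hz _ => dlb_of_dd hw hz) fun _ => ex_Zc_dlb hw

theorem Bas.dd (h : Bas (P275FM.dlb d M) φ) (hφ : ∀ a, φ a ∈ Zc d M) : Bas (dd d M) φ :=
  h.transfer (Zc d M) hφ (fun _ => Zc_dd) (fun _ hz => hz.2) (fun _ hz _ => dlb_of_dd hw hz)
    (fun _ hz _ => dd_of_dlb hw hz) fun _ => ex_Zc_dd hw

/-- **the class of a closed form of pure type only involves basis elements of this type** -/
theorem Bas.coef_ty (h : Bas (P275MC.dd d M) φ) (hφ : ∀ a, Pure (p a) (q a) (φ a)) {p₀ q₀ : ℕ}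
    {z y : SF d M} (hz : Pure p₀ q₀ z) {c : ι → ℂ} (e : z = ∑ a, c a • φ a + P275MC.dd d M y)
    (a : ι) (ha : ¬ (p₀ = p a ∧ q₀ = q a)) : c a = 0 := by
  have hZ : ∀ a, φ a ∈ Zc d M := fun a => (hφ a).mem_Zc (h.cyc a)
  have h1 : z ∈ Zc d M := hz.mem_Zc (by rw [e, map_add, h.cyc_sum, dd_dd, add_zero])
  obtain ⟨y', hy⟩ := dlb_of_dd hw ((Zc d M).sub_mem h1 ((Zc d M).sum_mem fun a _ =>
    (Zc d M).smul_mem (c a) (hZ a))) (y := y) (by rw [e]; abel)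
  refine (h.dlb hw hZ).coef (ch_pq_dlb p₀ q₀) (t := 1) (y := y')
    (ε := fun a => if p₀ = p a ∧ q₀ = q a then 1 else 0) (fun a => ?_)
    (by rw [hz.pq_self, one_smul]) (by rw [← hy]; abel) a (by rw [if_neg ha]; exact zero_ne_one)
  rw [(hφ a).pq_eq]
  split_ifs
  · rw [one_smul]
  · rw [zero_smul]

/-- **H6**: the Euler characteristic of the Dolbeault complex of the forms of holomorphic degree
`k`, in any model `(T, D, σ)` which is embedded by `i` -/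
theorem Bas.chi (h : Bas (P275MC.dd d M) φ) (hφ : ∀ a, Pure (p a) (q a) (φ a)) (k : ℕ)
    {T : Type*} [AddCommGroup T] [Module ℂ T] {D σ : Module.End ℂ T} (hσ : Ch D D σ)
    {i : T →ₗ[ℂ] SF d M} (hi : Function.Injective i) (hD : ∀ t, P275FM.dlb d M (i t) = i (D t))
    (hr : ∀ u, ty d M k u = u ↔ ∃ t, i t = u) {s : ℂ} (hs : ∀ t, i (σ t) = s • pr d M (i t)) :
    FiniteDimensional ℂ (Coh D) ∧ LinearMap.trace ℂ _ (Coh.map σ hσ) =
      s * (-1) ^ k * ∑ a with p a = k, (-1 : ℂ) ^ q a := by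
  have h1 := (h.dlb hw fun a => (hφ a).mem_Zc (h.cyc a)).sub_trace hi hD (P := ty d M k)
    (fun t => (hr _).2 ⟨t, rfl⟩) (fun u => (hr _).1 (by rw [gr_ty.mul, if_pos rfl]))
    (ty_dlb k) (S := fun a => p a = k) (fun a ha => by rw [(hφ a).ty_eq, if_pos ha.symm])
    (fun a ha => by rw [(hφ a).ty_eq, if_neg (Ne.symm ha)]) hσ (σ := s • pr d M) hs
    (ε := fun a => s * (-1) ^ k * (-1) ^ q a) fun a ha => by
      rw [LinearMap.smul_apply, (hφ a).pr_eq, smul_smul, ha, pow_add, mul_assoc]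
  exact ⟨h1.1, by rw [h1.2, mul_sum]⟩

end Vale.Agent.P269HD
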