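import Vale.Agent.P275FM.Coh
import Mathlib.LinearAlgebra.Trace
import Mathlib.LinearAlgebra.Basis.Basic

/-!
# P269, row H6: bases of cohomology given by cocycles, direct summands and traces
-/

noncomputable section

namespace Vale.Agent.P269HD

open Vale.Agent.P275FM Finset

variable {T T' : Type*} [AddCommGroup T] [Module ℂ T] [AddCommGroup T'] [Module ℂ T']
  {ι : Type*} [Fintype ι]

/-- the classes of the cocycles `φ a` form a basis of the cohomology of `D` -/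
structure Bas (D : Module.End ℂ T) (φ : ι → T) : Prop where
  cyc : ∀ a, D (φ a) = 0
  li : ∀ (c : ι → ℂ) (y : T), ∑ a, c a • φ a = D y → ∀ a, c a = 0
  sp : ∀ z, D z = 0 → ∃ (c : ι → ℂ) (y : T), z = ∑ a, c a • φ a + D y

variable {D : Module.End ℂ T} {φ : ι → T}

theorem Bas.cyc_sum (h : Bas D φ) (c : ι → ℂ) : D (∑ a, c a • φ a) = 0 := by
  simp only [map_sum, map_smul, h.cyc, smul_zero, sum_const_zero]

theorem Bas.mk_sum (h : Bas D φ) (c : ι → ℂ) :
    Coh.mk _ (h.cyc_sum c) = ∑ a, c a • Coh.mk (φ a) (h.cyc a) := by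
  rw [Coh.mk_sum _ (fun a => by rw [map_smul, h.cyc, smul_zero])]
  exact sum_congr rfl fun a _ => Coh.mk_smul _ _ _

theorem Bas.linInd (h : Bas D φ) : LinearIndependent ℂ fun a => Coh.mk (φ a) (h.cyc a) :=
  Fintype.linearIndependent_iff.2 fun c hc => by
    rw [← h.mk_sum, Coh.mk_eq_zero] at hc
    obtain ⟨y, hy⟩ := hc
    exact h.li c y hy

theorem Bas.ex (h : Bas D φ) (x : Coh D) : ∃ c : ι → ℂ, ∑ a, c a • Coh.mk (φ a) (h.cyc a) = x := by
  obtain ⟨z, hz, rfl⟩ := Coh.ind x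
  obtain ⟨c, y, e⟩ := h.sp z hz
  refine ⟨c, ?_⟩
  rw [← h.mk_sum, Coh.mk_eq]
  exact ⟨-y, by rw [map_neg, e]; abel⟩

/-- the basis of the cohomology -/
def Bas.basis (h : Bas D φ) : Module.Basis ι ℂ (Coh D) :=
  .mk h.linInd fun x _ => (Submodule.mem_span_range_iff_exists_fun ℂ).2 (h.ex x)

theorem Bas.basis_apply (h : Bas D φ) (a : ι) : h.basis a = Coh.mk (φ a) (h.cyc a) :=
  Module.Basis.mk_apply _ _ _

theorem Bas.fin (h : Bas D φ) : FiniteDimensional ℂ (Coh D) := h.basis.finiteDimensional_of_finite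

theorem Bas.finrank (h : Bas D φ) : Module.finrank ℂ (Coh D) = Fintype.card ι :=
  Module.finrank_eq_card_basis h.basis

/-- a basis of the cohomology gives `Bas` -/
theorem bas_of_basis (b : Module.Basis ι ℂ (Coh D)) (hc : ∀ a, D (φ a) = 0)
    (hb : ∀ a, b a = Coh.mk (φ a) (hc a)) : Bas D φ := by
  have h1 : ∀ c : ι → ℂ, D (∑ a, c a • φ a) = 0 := fun c => by
    simp only [map_sum, map_smul, hc, smul_zero, sum_const_zero]
  have h2 : ∀ c : ι → ℂ, Coh.mk _ (h1 c) = ∑ a, c a • b a := fun c => by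
    rw [Coh.mk_sum _ (fun a => by rw [map_smul, hc, smul_zero])]
    exact sum_congr rfl fun a _ => by rw [hb]; exact Coh.mk_smul _ _ _
  refine ⟨hc, fun c y hy => Fintype.linearIndependent_iff.1 b.linearIndependent c ?_,
    fun z hz => ?_⟩
  · rw [← h2, Coh.mk_eq_zero]
    exact ⟨y, hy⟩
  · have h3 := (h2 (b.repr (Coh.mk z hz))).trans (b.sum_repr _)
    obtain ⟨y, hy⟩ := Coh.mk_eq.1 h3.symm
    exact ⟨_, y, by rw [← hy]; abel⟩

/-- the trace of an operator which is diagonal on the basis -/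
theorem Bas.trace (h : Bas D φ) {σ : Module.End ℂ T} (hσ : Ch D D σ) {ε : ι → ℂ}
    (he : ∀ a, σ (φ a) = ε a • φ a) : LinearMap.trace ℂ _ (Coh.map σ hσ) = ∑ a, ε a := by
  classical
  rw [LinearMap.trace_eq_matrix_trace ℂ h.basis, Matrix.trace]
  refine sum_congr rfl fun a _ => ?_
  have h1 : Coh.map σ hσ (h.basis a) = ε a • h.basis a := by
    rw [h.basis_apply, Coh.map_mk, Coh.mk_congr (he a)]
    exact Coh.mk_smul _ _ _
  rw [Matrix.diag_apply, LinearMap.toMatrix_apply, h1, map_smul, Module.Basis.repr_self]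
  simp

/-- coefficients along a projection -/
theorem Bas.coef (h : Bas D φ) {P : Module.End ℂ T} (hP : Ch D D P) {ε : ι → ℂ}
    (he : ∀ a, P (φ a) = ε a • φ a) {z y : T} {c : ι → ℂ} {t : ℂ} (hz : P z = t • z)
    (e : z = ∑ a, c a • φ a + D y) (a : ι) (ha : ε a ≠ t) : c a = 0 := by
  obtain ⟨y', hy⟩ := hP.bd y
  have h1 : P z = ∑ a, (c a * ε a) • φ a + D y' := by
    rw [e, map_add, hy, map_sum]
    simp only [map_smul, he, smul_smul]
  have h2 : ∑ a, (c a * (ε a - t)) • φ a = D (t • y - y') := by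
    have h3 : t • z = ∑ a, (c a * t) • φ a + D (t • y) := by
      rw [e, smul_add, map_smul, smul_sum]
      simp only [smul_smul, mul_comm]
    simp only [mul_sub, sub_smul, sum_sub_distrib, map_sub]
    rw [hz, h3] at h1
    rw [sub_eq_sub_iff_add_eq_add, ← h1, add_comm]
  exact (mul_eq_zero.1 (h.li _ _ h2 a)).resolve_right (sub_ne_zero.2 ha)

/-- the basis of a direct summand -/
theorem Bas.sub (h : Bas D φ) {D' : Module.End ℂ T'} {i : T' →ₗ[ℂ] T} {P : Module.End ℂ T}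
    (hi : Function.Injective i) (hD : ∀ t, D (i t) = i (D' t)) (hPi : ∀ t, P (i t) = i t)
    (hr : ∀ u, ∃ t, i t = P u) (hP : ∀ u, P (D u) = D (P u)) {S : ι → Prop} [DecidablePred S]
    (h0 : ∀ a, ¬ S a → P (φ a) = 0) {ψ : {a // S a} → T'} (hψ : ∀ a, i (ψ a) = φ a) :
    Bas D' ψ := by
  have hs : ∀ c : {a // S a} → ℂ, i (∑ a, c a • ψ a) =
      ∑ a, (if h : S a then c ⟨a, h⟩ else 0) • φ a := fun c => by
    rw [map_sum, ← Fintype.sum_subtype_add_sum_subtype S]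
    rw [Fintype.sum_eq_zero (fun a : {a // ¬ S a} => (if h : S a then c ⟨a, h⟩ else 0) • φ a)
      fun a => by rw [dif_neg a.2, zero_smul], add_zero]
    exact sum_congr rfl fun a _ => by rw [map_smul, hψ, dif_pos a.2]
  refine ⟨fun a => hi ?_, fun c y e a => ?_, fun z hz => ?_⟩
  · rw [← hD, hψ, h.cyc, map_zero]
  · have h1 := h.li _ (i y) ((hs c).symm.trans (by rw [e, hD])) a
    rwa [dif_pos a.2] at h1
  · obtain ⟨c, y, e⟩ := h.sp (i z) (by rw [hD, hz, map_zero])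
    obtain ⟨t, ht⟩ := hr y
    refine ⟨fun a => c a, t, hi ?_⟩
    rw [map_add, hs, ← hD, ht, ← hP, ← hPi z, e, map_add, map_sum]
    refine congrArg (· + _) (sum_congr rfl fun a _ => ?_)
    split_ifs with ha
    · rw [map_smul, ← hψ ⟨a, ha⟩, hPi]
    · rw [map_smul, h0 a ha, smul_zero, zero_smul]

/-- the trace on the cohomology of a direct summand -/
theorem Bas.sub_trace (h : Bas D φ) {D' : Module.End ℂ T'} {i : T' →ₗ[ℂ] T}
    {P : Module.End ℂ T} (hi : Function.Injective i) (hD : ∀ t, D (i t) = i (D' t))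
    (hPi : ∀ t, P (i t) = i t) (hr : ∀ u, ∃ t, i t = P u) (hP : ∀ u, P (D u) = D (P u))
    {S : ι → Prop} [DecidablePred S] (h1 : ∀ a, S a → P (φ a) = φ a)
    (h0 : ∀ a, ¬ S a → P (φ a) = 0) {σ' : Module.End ℂ T'} (hσ' : Ch D' D' σ')
    {σ : Module.End ℂ T} (hσ : ∀ t, i (σ' t) = σ (i t)) {ε : ι → ℂ}
    (he : ∀ a, S a → σ (φ a) = ε a • φ a) :
    FiniteDimensional ℂ (Coh D') ∧
      LinearMap.trace ℂ _ (Coh.map σ' hσ') = ∑ a with S a, ε a := by
  have h2 : ∀ a : {a // S a}, ∃ t, i t = φ a := fun a => (hr (φ a)).imp fun t ht =>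
    ht.trans (h1 a a.2)
  choose ψ hψ using h2
  have h3 := h.sub hi hD hPi hr hP h0 hψ
  refine ⟨h3.fin, ?_⟩
  rw [h3.trace hσ' (ε := fun a => ε a) fun a => hi (by rw [hσ, map_smul, hψ, he a a.2])]
  exact (Finset.sum_subtype _ (fun a => by simp) ε).symm

/-- transfer between two differentials -/
theorem Bas.transfer {B : Module.End ℂ T} (h : Bas D φ) (Z : Submodule ℂ T) (hφ : ∀ a, φ a ∈ Z)
    (hZB : ∀ z ∈ Z, B z = 0) (hZD : ∀ z ∈ Z, D z = 0)
    (h1 : ∀ z ∈ Z, ∀ y, z = B y → ∃ y', z = D y') (h2 : ∀ z ∈ Z, ∀ y, z = D y → ∃ y', z = B y')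
    (h3 : ∀ z, B z = 0 → ∃ g ∈ Z, ∃ y, z = g + B y) : Bas B φ := by
  have hs : ∀ c : ι → ℂ, ∑ a, c a • φ a ∈ Z := fun c => Z.sum_mem fun a _ => Z.smul_mem _ (hφ a)
  refine ⟨fun a => hZB _ (hφ a), fun c y e => ?_, fun z hz => ?_⟩
  · obtain ⟨y', e'⟩ := h1 _ (hs c) y e
    exact h.li c y' e'
  · obtain ⟨g, hg, y, rfl⟩ := h3 z hz
    obtain ⟨c, y1, e⟩ := h.sp g (hZD g hg)
    obtain ⟨y2, e2⟩ := h2 _ (Z.sub_mem hg (hs c)) y1 (by rw [e]; abel)
    exact ⟨c, y2 + y, by rw [map_add, ← e2]; abel⟩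

end Vale.Agent.P269HD
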