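import Vale.Agent.P269HD.Top
import Vale.Agent.P269HK.Fin
import Vale.Agent.P269Z.Stmt

/-!
# P269, block H from the rows BUN and DEG
-/

namespace Vale.Agent.P269HD

/-- **block H** -/
theorem bh_of (hB : P269HP.BUN) (hD : DEG) : P269Z.BH := fun _ _ _ _ _ _ _ _ _ X _ _ _ B hr =>
  cohOK_of P269HK.pas P269HK.kos hB hD X B (by omega)

end Vale.Agent.P269HD
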