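import Vale.Agent.P269H.Defs
import Vale.Agent.P277Z.Coh.Vap
import Vale.Agent.P277Z.Pos.Kah

/-!
# P269: local holomorphic lifts of a complete intersection, the Fubini-Study Kaehler metric
-/

open scoped Manifold ContDiff Topology ComplexOrder
open Filter Set
open Vale.Agent.P272.K Vale.Agent.P269H Vale.Agent.P277Z.Pos

noncomputable section

namespace Vale.Agent.P269HD

variable {r c : ℕ} {M : Type} [TopologicalSpace M] [ChartedSpace (Cm r) M] (X : CI r c M)

/-- the standard open sets -/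
def U (i : Fin (r + c + 1)) : Set M := {x | (X.pt x).rep i ≠ 0}

/-- the lift with `i`-th coordinate `1` -/
def lf (i : Fin (r + c + 1)) (x : M) : Fin (r + c + 1) → ℂ := ((X.pt x).rep i)⁻¹ • (X.pt x).rep

/-- the potential of the Fubini-Study metric on `U i` -/
def pot (i : Fin (r + c + 1)) (x : M) : ℝ := Real.log (∑ a, ‖lf X i x a‖ ^ 2)

variable {X} {i j : Fin (r + c + 1)} {x : M} {e : Chart r M}

theorem lf_apply (a) : lf X i x a = ((X.pt x).rep i)⁻¹ * (X.pt x).rep a := rfl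

theorem lf_self (h : x ∈ U X i) : lf X i x i = 1 := inv_mul_cancel₀ h

theorem lf_ne (h : x ∈ U X i) : lf X i x j ≠ 0 ↔ x ∈ U X j := by
  rw [lf_apply, mul_ne_zero_iff, and_iff_right (inv_ne_zero h)]
  rfl

theorem lf_tr (h' : x ∈ U X j) : lf X i x = lf X i x j • lf X j x := by
  funext a
  rw [Pi.smul_apply, lf_apply, lf_apply, lf_apply, smul_eq_mul, mul_assoc,
    mul_inv_cancel_left₀ h']

variable (X x) in
theorem ex_U : ∃ i, x ∈ U X i := Function.ne_iff.1 (X.pt x).rep_nonzero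

theorem lf_an (he : At e x) (h : x ∈ U X i) : AnalyticAt ℂ (fun w => lf X i (e.symm w)) (e x) :=
  (X.hol e he.1 x he.2 i h).1

theorem lf_an' (he : At e x) (h : x ∈ U X i) (a) :
    AnalyticAt ℂ (fun w => lf X i (e.symm w) a) (e x) := analyticAt_pi_iff.1 (lf_an he h) a

theorem lf_inj (he : At e x) (h : x ∈ U X i) :
    Function.Injective (fderiv ℂ (fun w => lf X i (e.symm w)) (e x)) := (X.hol e he.1 x he.2 i h).2

theorem U_ev (he : At e x) (h : x ∈ U X i) : ∀ᶠ w in 𝓝 (e x), e.symm w ∈ U X i := by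
  have h1 := (lf_an' he h i).continuousAt.eventually_ne (y := 0)
    (by simp only [he.left_inv, lf_self h]; exact one_ne_zero)
  filter_upwards [h1] with w hw k
  exact hw (by rw [lf_apply, k, mul_zero])

variable (X i) in
theorem isOpen_U : IsOpen (U X i) := isOpen_iff_mem_nhds.2 fun x hx => by
  have he : At (chartAt (Cm r) x) x := ⟨chart_mem_atlas _ x, mem_chart_source _ x⟩
  filter_upwards [(he.1 |> fun _ => (chartAt (Cm r) x).continuousAt he.2).eventually (U_ev he hx),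
    (chartAt (Cm r) x).open_source.mem_nhds he.2] with y hy hy'
  rwa [(chartAt (Cm r) x).left_inv hy'] at hy

theorem sum_pos (h : x ∈ U X i) : 0 < ∑ a, ‖lf X i x a‖ ^ 2 :=
  Finset.sum_pos' (fun _ _ => sq_nonneg _)
    ⟨i, Finset.mem_univ _, by rw [lf_self h, norm_one]; exact one_pos.trans_eq (one_pow 2).symm⟩

theorem sq_sm {g : Cm r → ℂ} {z : Cm r} (h : AnalyticAt ℂ g z) :
    ContDiffAt ℝ ∞ (fun w => ‖g w‖ ^ 2) z :=
  (h.contDiffAt.restrict_scalars ℝ).norm_sq ℝ

theorem pot_sm (he : At e x) (h : x ∈ U X i) :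
    ContDiffAt ℝ ∞ (fun w => pot X i (e.symm w)) (e x) :=
  (ContDiffAt.sum fun a _ => sq_sm (lf_an' he h a)).log
    (by simpa only [he.left_inv] using (sum_pos h).ne')

theorem pot_pos (h : x ∈ U X i) : PosAt r (pot X i) x := fun e he => by
  refine ⟨pot_sm he h, P277Z.Coh.fs_pos (lf_an' he h) (k := i)
    (by simp only [he.left_inv, lf_self h]; exact one_ne_zero) fun v hv => lf_inj he h ?_⟩
  rw [map_zero, fderiv_pi fun a => (lf_an' he h a).differentiableAt]
  funext a
  refine Eq.trans (DFunLike.congr_fun (Filter.EventuallyEq.fderiv_eq (𝕜 := ℂ)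
    (f₁ := fun w => lf X i (e.symm w) a) ?_) v) (hv a)
  filter_upwards [U_ev he h] with w hw
  rw [lf_self hw, div_one]

theorem pot_sub (h : x ∈ U X i) (h' : x ∈ U X j) :
    pot X i x - pot X j x = Real.log (‖lf X i x j‖ ^ 2) := by
  have h1 : ∑ a, ‖lf X i x a‖ ^ 2 = ‖lf X i x j‖ ^ 2 * ∑ a, ‖lf X j x a‖ ^ 2 := by
    rw [Finset.mul_sum]
    refine Finset.sum_congr rfl fun a _ => ?_
    conv_lhs => rw [lf_tr (i := i) h']
    rw [Pi.smul_apply, norm_smul, mul_pow]
  rw [pot, pot, h1, Real.log_mul (pow_ne_zero _ (norm_ne_zero_iff.2 ((lf_ne h).2 h')))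
    (sum_pos h').ne', add_sub_cancel_right]

theorem pot_sub_ev (he : At e x) (h : x ∈ U X i) (h' : x ∈ U X j) :
    (fun w => pot X i (e.symm w) - pot X j (e.symm w)) =ᶠ[𝓝 (e x)]
      fun w => Real.log (‖lf X i (e.symm w) j‖ ^ 2) := by
  filter_upwards [U_ev he h, U_ev he h'] with w h1 h2 using pot_sub h1 h2

theorem pot_flat (h : x ∈ U X i) (h' : x ∈ U X j) :
    FlatAt r (fun y => pot X i y - pot X j y) x := fun e he => by
  refine ⟨(pot_sm he h).sub (pot_sm he h'), ?_⟩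
  rw [cHess_congr (pot_sub_ev he h h')]
  exact cHess_log_norm_sq (lf_an' he h j).contDiffAt
    (by simpa only [he.left_inv] using (lf_ne h).2 h')

/-- the squared length of the section `x_i` of `O(1)` -/
theorem fs_eq (h : x ∈ U X i) :
    Real.log (‖(X.pt x).rep i‖ ^ 2 / ∑ a, ‖(X.pt x).rep a‖ ^ 2) = -pot X i x := by
  have h0 : ‖(X.pt x).rep i‖ ≠ 0 := norm_ne_zero_iff.2 h
  rw [pot, ← Real.log_inv]
  simp only [lf_apply, norm_mul, norm_inv, mul_pow, ← Finset.mul_sum]
  rw [mul_inv, inv_pow, inv_inv, div_eq_mul_inv]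

variable [IsManifold 𝓘(ℂ, Cm r) ω M]

variable (X) in
/-- **the Fubini-Study metric** -/
theorem ex_kah : ∃ w, IsKahler w ∧ ∀ i (e : Chart r M) x, At e x → x ∈ U X i →
    w e (e x) = cHess (fun z => pot X i (e.symm z)) (e x) :=
  P277Z.Pos.kah r M _ (U X) (pot X) (isOpen_U X) (ex_U X) (fun _ _ => pot_pos)
    fun _ _ _ => pot_flat

end Vale.Agent.P269HD
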