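import Vale.Agent.P269HD.Lift
import Vale.Agent.P269HD.Kah
import Vale.Agent.P269FB.Alg
import Vale.Agent.P280Z.Co.C1e
import Vale.Agent.P280Z.Co.PsB

/-!
# P269: the Fubini-Study form as a closed form of type `(1,1)`
-/

open scoped Manifold ContDiff Topology Matrix ComplexOrder
open Filter
open Vale.Agent.P272.K Vale.Agent.P299.IX Vale.Agent.P299.IX.Fock Vale.Agent.P281Z.Hg
  Vale.Agent.P281Z.Hg.G2H Vale.Agent.P275MC Vale.Agent.P269H Vale.Agent.P269FB
open Vale.Agent.P280Z.Co.C1H (d_dbar dg_Lw')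
open Vale.Agent.P275AR (ty ty_vl)

noncomputable section

namespace Vale.Agent.P269HD

section pt
variable {m : ℕ}

theorem ph_J (a : Cv m) : ph m (P269F.pb (fun v : Cm m => Complex.I • v) 0
    (ExteriorAlgebra.ι ℂ a)) = Complex.I • (epsV (co a) *ᵥ ev ∅) -
      (2 * Complex.I) • ∑ k, co a (ah k) • (eps (ah k) *ᵥ (ev ∅ : Fo m)) := by
  have h1 : fderiv ℝ (fun v : Cm m => Complex.I • v) 0 =
      Complex.I • ContinuousLinearMap.id ℝ (Cm m) :=
    ((hasFDerivAt_id (𝕜 := ℝ) (0 : Cm m)).const_smul Complex.I).fderiv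
  have h2 : ∀ (j : Fin m) (t : ℂ), Complex.I • (Pi.single j t : Cm m) =
      Pi.single j (Complex.I * t) := fun j t => by rw [← smul_eq_mul, Pi.single_smul]
  have h3 : ∀ j : Fin m, a (Pi.single j (-1)) = -a (Pi.single j 1) := fun j => by
    rw [Pi.single_neg, map_neg]
  rw [P269F.pb, ExteriorAlgebra.map_apply_ι, ← mul_one (ExteriorAlgebra.ι ℂ _), ph_i, ph_one,
    epsV, epsV, Matrix.sum_mulVec, Matrix.sum_mulVec, Ka.sum_idx, Ka.sum_idx, smul_add,
    add_sub_assoc, Finset.smul_sum, Finset.smul_sum, Finset.smul_sum, ← Finset.sum_sub_distrib]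
  simp only [Matrix.smul_mulVec, smul_smul, ← sub_smul]
  refine congrArg₂ _ (Finset.sum_congr rfl fun j _ => congrArg (· • _) ?_)
    (Finset.sum_congr rfl fun j _ => congrArg (· • _) ?_)
  · simp only [co_hl, LinearMap.coe_mk, AddHom.coe_mk, h1, ContinuousLinearMap.comp_apply,
      smul_apply, ContinuousLinearMap.id_apply, h2, mul_one, Complex.I_mul_I,
      h3]
    linear_combination (a (Pi.single j Complex.I) / 2) * Complex.I_mul_I
  · simp only [co_ah, LinearMap.coe_mk, AddHom.coe_mk, h1, ContinuousLinearMap.comp_apply,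
      smul_apply, ContinuousLinearMap.id_apply, h2, mul_one, Complex.I_mul_I,
      h3]
    linear_combination (a (Pi.single j Complex.I) / 2) * Complex.I_mul_I

/-- the form `d g ∘ J` in the Fock model -/
def dJ (g : Cm m → ℂ) (y : Cm m) : Fo m :=
  ph m (P269F.pb (fun v : Cm m => Complex.I • v) 0 (ExteriorAlgebra.ι ℂ (fderiv ℝ g y)))

theorem dJ_ev {g : Cm m → ℂ} {z : Cm m} (hg : ContDiffAt ℝ ∞ g z) :
    dJ g =ᶠ[𝓝 z] fun y => Complex.I • dT (fun y => g y • (ev ∅ : Fo m)) y +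
      (-2 * Complex.I) • ∑ k, dzb k g y • (eps (ah k) *ᵥ (ev ∅ : Fo m)) := by
  filter_upwards [(hg.of_le (m := 1) (by simp)).eventually (by simp)] with y hy
  rw [dJ, ph_J, ka.fun_mul (hy.differentiableAt (by simp)) (differentiableAt_const _), ka.const,
    smul_zero, add_zero, sub_eq_add_neg, ← neg_smul, neg_mul]
  simp only [co_fd, Ka.dr_ah, show co (fderiv ℝ g y) = fun c => dr c g y from funext (co_fd g y)]

theorem dbar_sm {g : Cm m → ℂ} {z : Cm m} (hg : ContDiffAt ℝ ∞ g z) :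
    ContDiffAt ℝ ∞ (fun y => ∑ k, dzb k g y • (eps (ah k) *ᵥ (ev ∅ : Fo m))) z :=
  ContDiffAt.sum fun k _ => ContDiffAt.smul (f := dzb k g) (by
    rw [← Ka.dr_ah]
    exact Ka.dr_smooth hg) contDiffAt_const

theorem dJ_sm {g : Cm m → ℂ} {z : Cm m} (hg : ContDiffAt ℝ ∞ g z) : ContDiffAt ℝ ∞ (dJ g) z :=
  (((ka.smooth (hg.smul contDiffAt_const)).const_smul _).add
    ((dbar_sm hg).const_smul _)).congr_of_eventuallyEq (dJ_ev hg)

theorem dT_dJ {g : Cm m → ℂ} {z : Cm m} (hg : ContDiffAt ℝ ∞ g z) :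
    dT (dJ g) z = (-2 : ℂ) • (Lw (Matrix.of fun j k => dz j (dzb k g) z) *ᵥ ev ∅) := by
  have h0 : ContDiffAt ℝ ∞ (fun y => g y • (ev ∅ : Fo m)) z := hg.smul contDiffAt_const
  have h1 := (ka.smooth h0).differentiableAt (by simp)
  have h2 := (dbar_sm hg).differentiableAt (by simp)
  rw [ka.congr (dJ_ev hg), ka.add (h1.fun_const_smul _) (h2.fun_const_smul _), ka.smul _ h1,
    ka.smul _ h2, ka.dd h0, smul_zero, zero_add, ← d_dbar hg, smul_smul]

end pt

variable {r c : ℕ} {M : Type} [TopologicalSpace M] [ChartedSpace (Cm r) M]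
  [IsManifold 𝓘(ℂ, Cm r) ω M] [T2Space M] [CompactSpace M]

/-- the fundamental form of a Kaehler metric -/
theorem ex_om {w : Rw r M (Matrix (Fin r) (Fin r) ℂ)} (hw : IsKahler w) : ∃ h : SF r M,
    Pure 1 1 h ∧ dd r M h = 0 ∧ ∀ e x, At e x → vl h e (e x) = Lw (w e (e x)) *ᵥ ev ∅ := by
  have f2 := f2b f1a f1b f2a
  obtain ⟨v, hv⟩ := G1H.mkf (fun e z => Lw (w e z) *ᵥ ev ∅) (fun e x h =>
    G1H.cd_mulVec (G1H.mc_Lw (hw.smooth e x h)) contDiffAt_const) fun e e' x h h' => by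
      rw [(P280Z.Pu.gg1 r M).jt_eq e e' x h h', Matrix.mulVec_mulVec, f2.L_blk,
        ← Matrix.mulVec_mulVec, lam_ev_empty, hw.change e e' x h h']
      rfl
  have h1 : ∀ e x, At e x → vl v e (e x) = Lw (w e (e x)) *ᵥ ev ∅ := fun e x h =>
    hv e h.1 _ (e.map_source h.2)
  refine ⟨v, ⟨ext' fun e x h => ?_, ext' fun e x h => ?_⟩, ext' fun e x h => ?_, h1⟩
  · rw [ty_vl 1 v e x h, h1 e x h, P280Z.Co.Ps.pm_om]
  · funext I
    rw [pj_vl _ _ h, h1 e x h, ← dg_Lw', dg_mulVec]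
    split_ifs with k1 k2 k2
    · rfl
    · exact absurd (by exact_mod_cast k1) k2
    · exact absurd (by exact_mod_cast k2) k1
    · rfl
  · rw [dd_vl _ h, ka.congr (v := fun z => Lw (w e z) *ᵥ ev ∅)
      (ev_at h (.of_forall fun y => h1 e y)), vl_zero]
    exact ka.om (hw.smooth e x h) (ev_at h (.of_forall fun y hy => (hw.posDef e y hy).1))
      (hw.closed e x h)

variable (X : CI r c M)

theorem ex_hS : ∃ h : SF r M, Pure 1 1 h ∧ dd r M h = 0 ∧ ∀ i e x, At e x → x ∈ U X i →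
    vl h e (e x) = (2 * Real.pi : ℂ)⁻¹ •
      (Lw (cHess (fun z => pot X i (e.symm z)) (e x)) *ᵥ ev ∅) := by
  obtain ⟨w, hw, h1⟩ := ex_kah X
  obtain ⟨h, h2, h3, h4⟩ := ex_om hw
  exact ⟨(2 * Real.pi : ℂ)⁻¹ • h, h2.smul _, by rw [map_smul, h3, smul_zero],
    fun i e x he hx => by rw [vl_smul, h4 e x he, h1 i e x he hx]⟩

/-- the hyperplane class as a smooth form -/
def hS : SF r M := (ex_hS X).choose

theorem hS_pure : Pure 1 1 (hS X) := (ex_hS X).choose_spec.1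

theorem hS_closed : dd r M (hS X) = 0 := (ex_hS X).choose_spec.2.1

variable {X} in
theorem hS_vl {i} {e : Chart r M} {x : M} (he : At e x) (hx : x ∈ U X i) :
    vl (hS X) e (e x) = (2 * Real.pi : ℂ)⁻¹ •
      (Lw (cHess (fun z => pot X i (e.symm z)) (e x)) *ᵥ ev ∅) :=
  (ex_hS X).choose_spec.2.2 i e x he hx

end Vale.Agent.P269HD
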