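import Vale.Agent.P269HD.Kah
import Vale.Agent.P275KU.Fn
import Vale.Agent.P269A.IF
import Vale.Agent.P275MC.Pd

/-!
# P269, row H9: the cohomology ring of a compact Kaehler manifold in a basis of pure type
-/

set_option linter.unusedSectionVars false

open scoped Manifold ContDiff Topology Matrix
open Finset
open Vale.Agent.P272.K Vale.Agent.P281Z.Hg Vale.Agent.P275MC Vale.Agent.P275FM
open Vale.Agent.P281Z.Hg.G1H Vale.Agent.P281Z.Hg.G2H
open Vale.Agent.P275AR (ty del gl gl_dd)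
open Vale.Agent.P275KU (wd_swap wd_even pr_even)

noncomputable section

namespace Vale.Agent.P269HD

variable {d : ℕ} {M : Type} [TopologicalSpace M] [ChartedSpace (Cm d) M]
  [IsManifold 𝓘(ℂ, Cm d) ω M] {w : Rw d M (Matrix (Fin d) (Fin d) ℂ)}

theorem card_le_tp (I : Finset (Fin (d + d))) : I.card ≤ P281Z.Hg.tp I + d := by
  have h1 := card_filter_add_card_filter_not (s := I) fun l : Fin (d + d) => l.val < d
  have h2 := card_filter_add_card_filter_not (s := (univ : Finset (Fin (d + d))))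
    fun l : Fin (d + d) => l.val < d
  have h3 := card_le_card (filter_subset_filter (fun l : Fin (d + d) => ¬ l.val < d)
    (subset_univ I))
  rw [Fin.card_filter_val_lt, card_fin] at h2
  rw [P281Z.Hg.tp]
  omega

theorem Pure.le {p q : ℕ} {u : SF d M} (h : Pure p q u) (hu : u ≠ 0) : p ≤ d ∧ q ≤ d := by
  refine ⟨not_lt.1 fun k => hu (by rw [← h.1, P275AR.ty_big k]), not_lt.1 fun k => hu ?_⟩
  refine ext' fun e x he => funext fun I => ?_
  rw [← h.1, P275FM.ty_eq, tf_vl' _ _ he, ← h.2, pj_vl _ _ he, vl_zero, Pi.zero_apply]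
  have h1 := card_le_tp I
  split_ifs with h2 h3
  · omega
  · exact mul_zero _
  · exact zero_mul _
  · exact zero_mul _

theorem Pure.Dg {p q : ℕ} {u : SF d M} (h : Pure p q u) : u ∈ Dg d M (p + q : ℕ) :=
  mem_Dg_iff.2 h.2

theorem pure_one : Pure 0 0 (one d M) := by
  refine ⟨ext' fun e x he => funext fun I => ?_, pj_eq one_Dg⟩
  rw [ty_eq, tf_vl' _ _ he]
  by_cases h : I = ∅
  · subst h
    rw [if_pos (by simp [P281Z.Hg.tp]), one_mul]
  · rw [one_Dg e _ I (by simpa using h), mul_zero]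

theorem Pure.uniq {p q p' q' : ℕ} {u : SF d M} (h : Pure p q u) (h' : Pure p' q' u) (hu : u ≠ 0) :
    p = p' ∧ q = q' := by
  by_contra k
  exact hu (by rw [← h.pq_self, h'.pq_eq, if_neg k])

theorem closed_wd {u v : SF d M} (hu : dd d M u = 0) (hv : dd d M v = 0) :
    dd d M (wd u v) = 0 := by rw [dd_wd, hu, hv, wd_zero, map_zero, add_zero]

theorem wd_dd {u : SF d M} (hu : dd d M u = 0) (y : SF d M) :
    wd u (dd d M y) = dd d M (wd (pr d M u) y) := by
  rw [dd_wd, dd_pr, hu, map_zero, neg_zero, wd_zero, zero_add, pr_pr]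

theorem dd_wd' {v : SF d M} (hv : dd d M v = 0) (y : SF d M) :
    wd (dd d M y) v = dd d M (wd y v) := by rw [dd_wd, hv, map_zero, add_zero]

theorem wd_mul (u v : SF d M) : wd (wd u v) = wd u * wd v := LinearMap.ext (wd_wd u v)

theorem wd_one' : wd (one d M) = 1 := LinearMap.ext one_wd

variable {ι : Type} {φ : ι → SF d M} {p q : ι → ℕ} {h : SF d M}

/-- the operator of multiplication by `h ^ e ∧ φ a₁ ∧ ⋯ ∧ φ aₙ` -/
def W (h : SF d M) (φ : ι → SF d M) (e : ℕ) (l : List ι) : Module.End ℂ (SF d M) :=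
  wd h ^ e * (l.map fun a => wd (φ a)).prod

theorem wd_W (e : ℕ) (l : List ι) : wd (W h φ e l (one d M)) = W h φ e l := by
  induction e with
  | zero =>
    induction l with
    | nil => simp [W, wd_one']
    | cons a l ih =>
      simp only [W, pow_zero, one_mul, List.map_cons, List.prod_cons] at ih ⊢
      rw [Module.End.mul_apply, wd_mul, ih]
  | succ e ih =>
    rw [W] at ih ⊢
    rw [pow_succ', mul_assoc, Module.End.mul_apply, wd_mul, ih]

theorem W_closed (hh : dd d M h = 0) (hφ : ∀ a, dd d M (φ a) = 0) (e : ℕ) (l : List ι) :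
    dd d M (W h φ e l (one d M)) = 0 := by
  induction e with
  | zero =>
    induction l with
    | nil => simp [W, dd_one]
    | cons a l ih =>
      simp only [W, pow_zero, one_mul, List.map_cons, List.prod_cons] at ih ⊢
      exact closed_wd (hφ a) ih
  | succ e ih =>
    rw [W] at ih ⊢
    rw [pow_succ', mul_assoc]
    exact closed_wd hh ih

theorem W_pure (hh : Pure 1 1 h) (hφ : ∀ a, Pure (p a) (q a) (φ a)) (e : ℕ) (l : List ι) :
    Pure (e + (l.map p).sum) (e + (l.map q).sum) (W h φ e l (one d M)) := by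
  induction e with
  | zero =>
    induction l with
    | nil => simpa [W] using pure_one
    | cons a l ih =>
      simp only [W, pow_zero, one_mul, List.map_cons, List.prod_cons, List.sum_cons,
        zero_add] at ih ⊢
      exact (hφ a).mul ih
  | succ e ih =>
    rw [W] at ih ⊢
    rw [pow_succ', mul_assoc, add_comm e, add_assoc, add_assoc]
    exact hh.mul ih

theorem comm_h (hh : Pure 1 1 h) (u : SF d M) : Commute (wd h) (wd u) :=
  LinearMap.ext (wd_even (pr_even hh.Dg (by decide)) u)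

theorem W_cons (hh : Pure 1 1 h) (e : ℕ) (a : ι) (l : List ι) :
    W h φ e (a :: l) = wd (φ a) * W h φ e l := by
  rw [W, W, List.map_cons, List.prod_cons, ← mul_assoc, ← mul_assoc,
    ((comm_h hh (φ a)).pow_left e).eq]

theorem W_append (hh : Pure 1 1 h) (e e' : ℕ) (l l' : List ι) :
    W h φ (e + e') (l ++ l') = W h φ e l * W h φ e' l' := by
  induction l with
  | nil => simp [W, pow_add, mul_assoc]
  | cons a l ih => rw [List.cons_append, W_cons hh, W_cons hh, ih, mul_assoc]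

theorem W_swap (hh : Pure 1 1 h) (hφ : ∀ a, Pure (p a) (q a) (φ a)) (e : ℕ) (l₁ : List ι)
    (a b : ι) (l₂ : List ι) : W h φ e (l₁ ++ a :: b :: l₂) =
      (-1 : ℂ) ^ ((p a + q a) * (p b + q b)) • W h φ e (l₁ ++ b :: a :: l₂) := by
  have h1 : wd (φ a) * wd (φ b) =
      (-1 : ℂ) ^ ((p a + q a) * (p b + q b)) • (wd (φ b) * wd (φ a)) :=
    LinearMap.ext fun u => by
      rw [← Int.cast_negOnePow_natCast, Nat.cast_mul]
      exact wd_swap (hφ a).Dg (hφ b).Dg u
  rw [← add_zero e, W_append hh, W_append hh, W_cons hh, W_cons hh, W_cons hh, W_cons hh,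
    ← mul_assoc (wd _), ← mul_assoc (wd _), h1, smul_mul_assoc, mul_smul_comm]

variable [T2Space M] [CompactSpace M]

theorem mem_Ac (u : SF d M) : u ∈ Ac d (Set.univ : Set M) := Ac_univ (d := d) (M := M) ▸ trivial

theorem itc_d (u : SF d M) : itc d M (dd d M u) = 0 := itc_dd (mem_Ac u)

theorem Pure.itc_ne {p q : ℕ} {u : SF d M} (h : Pure p q u) (hu : itc d M u ≠ 0) :
    p = d ∧ q = d := by
  have h1 := h.le fun k => hu (by rw [k, map_zero])
  have h2 : ((p + q : ℕ) : ℤ) = (d + d : ℕ) := by_contra fun k => hu (itc_Dg ⟨mem_Ac u, h.Dg⟩ k)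
  omega

variable [Fintype ι]

/-- the pairing with a closed form only depends on the coefficients -/
theorem itc_exp {u v y : SF d M} (hu : dd d M u = 0) {c : ι → ℂ}
    (e : v = ∑ a, c a • φ a + dd d M y) :
    itc d M (wd u v) = ∑ a, itc d M (wd u (φ a)) * c a := by
  rw [e, map_add, map_add, wd_dd hu, itc_d, add_zero, map_sum, map_sum]
  simp only [map_smul, smul_eq_mul, mul_comm]

/-- **Poincare duality** -/
theorem Bas.nondeg [DecidableEq ι] (hw : IsKahler w) (hB : Bas (P275MC.dd d M) φ) {κ : ℂ}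
    (hκ : κ ≠ 0) {η : Matrix ι ι ℂ} (hη : ∀ a b, η a b = κ * itc d M (wd (φ a) (φ b))) :
    IsUnit η.det := by
  rw [isUnit_iff_ne_zero, Ne, ← Matrix.exists_mulVec_eq_zero_iff]
  rintro ⟨v, hv, e⟩
  have hz := hB.cyc_sum v
  set z := ∑ a, v a • φ a with hzd
  have h1 : ∀ a, itc d M (wd (φ a) z) = 0 := fun a => by
    have h2 := congrFun e a
    rw [itc_exp (hB.cyc a) (c := v) (φ := φ) (y := 0) (by rw [map_zero, add_zero])]
    simp only [Matrix.mulVec, dotProduct, hη, mul_assoc, ← mul_sum, Pi.zero_apply] at h2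
    exact (mul_eq_zero.1 h2).resolve_left hκ
  have h2 : ∀ y, P275MC.dd d M y = 0 → itc d M (wd y z) = 0 := fun y hy => by
    obtain ⟨c, b, rfl⟩ := hB.sp y hy
    rw [wd_add, map_add, dd_wd' hz, itc_d, add_zero]
    change itc d M (wdL d M _ z) = 0
    rw [map_sum (wdL d M), LinearMap.sum_apply, map_sum]
    refine sum_eq_zero fun a _ => ?_
    rw [map_smul, LinearMap.smul_apply, map_smul]
    exact smul_eq_zero_of_right _ (h1 a)
  obtain ⟨b, hb⟩ := sf_nul hw hz fun y hy => by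
    rw [Qc_symm (mem_Ac y) (mem_Ac z), Qc_eq (mem_Ac z), h2, mul_zero]
    have h3 := gl_dd (fun q => (-1) ^ (q - 1).choose 2) y
    rw [hy, map_zero] at h3
    exact h3.symm
  exact hv (funext (hB.li v b hb))

theorem sum_ty (hB : Bas (P275MC.dd d M) φ) (hφ : ∀ a, Pure (p a) (q a) (φ a)) (f : ℕ → ℂ) :
    ∑ a, (-1) ^ (p a + q a) * f (p a) =
      ∑ k ∈ range (d + 1), (-1) ^ k * f k * ∑ a with p a = k, (-1 : ℂ) ^ q a := by
  classical
  have hne : ∀ a, φ a ≠ 0 := fun a k => by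
    have := hB.li (Pi.single a 1) 0 (by simp [Pi.single_apply, k]) a
    simp at this
  rw [← sum_fiberwise_of_maps_to (s := univ) (t := range (d + 1)) (g := p)
    fun a _ => mem_range.2 (Nat.lt_succ_of_le ((hφ a).le (hne a)).1)]
  refine sum_congr rfl fun k _ => ?_
  rw [mul_sum]
  refine sum_congr rfl fun a ha => ?_
  rw [(mem_filter.1 ha).2, pow_add]
  ring

theorem Bas.ne (hB : Bas (P275MC.dd d M) φ) (a : ι) : φ a ≠ 0 := fun k => by
  classical
  have := hB.li (Pi.single a 1) 0 (by simp [Pi.single_apply, k]) a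
  simp at this

theorem Bas.o_big (hB : Bas (P275MC.dd d M) φ) (hφ : ∀ a, Pure (p a) (q a) (φ a)) {k : ℕ}
    (hk : d < k) : ∑ a with p a = k, (-1 : ℂ) ^ q a = 0 :=
  sum_eq_zero fun a ha => by
    have h1 := ((hφ a).le (hB.ne a)).1
    have h2 := (mem_filter.1 ha).2
    omega

theorem Bas.conn [PreconnectedSpace M] (hB : Bas (P275MC.dd d M) φ) {o a : ι}
    (ho : φ o = one d M) (ha : Pure 0 0 (φ a)) : a = o := by
  classical
  obtain ⟨c, hc⟩ := zero_const (w := φ a) ha.Dg (hB.cyc a)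
  by_contra k
  have := hB.li (Pi.single a 1 - Pi.single o c) 0 (by
    simp [Pi.single_apply, sub_smul, sum_sub_distrib, ho, ← hc]) a
  simp [k] at this

/-- **H9**: the interface `CohOK` from the two identities for the numbers `χ (Ω^k)` -/
theorem cohOK [DecidableEq ι] [PreconnectedSpace M] (hw : IsKahler w) (X : P269A.Coh ι) (hr : X.r = d)
    (hB : Bas (P275MC.dd d M) φ) (hφ : ∀ a, Pure (X.p a) (X.q a) (φ a)) (ho : φ X.o = one d M)
    (hh : Pure 1 1 h) (hh0 : dd d M h = 0) {κ : ℂ} (hκ : κ ≠ 0)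
    (hJ : ∀ e l, X.J e l = κ * itc d M (W h φ e l (one d M))) (hγ : X.γ 0 = 1)
    (gb : ∑ k ∈ range (d + 1), (-1) ^ k * ∑ a with X.p a = k, (-1 : ℂ) ^ X.q a =
      X.J d [] * X.γ d)
    (lw : ∑ k ∈ range (d + 1), (-1) ^ k * ((k : ℂ) - d / 2) ^ 2 *
      ∑ a with X.p a = k, (-1 : ℂ) ^ X.q a =
        X.J d [] * (d * X.γ d / 12 + X.γ 1 * X.γ (d - 1) / 6)) : P269A.CohOK X := by
  have h0 := (hφ X.o).uniq (ho ▸ pure_one) (hB.ne _)
  have hη : ∀ a b, X.η a b = κ * itc d M (wd (φ a) (φ b)) := fun a b => by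
    rw [P269A.Coh.η, hJ]
    simp [W, wd_one]
  have hU := hB.nondeg hw hκ hη
  refine ⟨hγ, h0.1, h0.2, fun a h1 h2 => hB.conn ho (by simpa only [h1, h2] using hφ a),
    fun e l => ?_, fun e l₁ a b l₂ => ?_, fun e l hl => ?_, hU,
    fun e₁ e₂ l₁ l₂ => ?_, ?_, ?_⟩
  · rw [hJ, hJ, W_cons hh, ho, wd_one', one_mul]
  · rw [hJ, hJ, W_swap hh hφ, LinearMap.smul_apply, map_smul, smul_eq_mul, mul_left_comm]
    rfl
  · rw [hr]
    exact (W_pure hh hφ e l).itc_ne fun k => hl (by rw [hJ, k, mul_zero])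
  · obtain ⟨c, y, e⟩ := hB.sp _ (W_closed hh0 hB.cyc e₂ l₂)
    have h1 : ∀ b, X.J e₂ (b :: l₂) = (X.η *ᵥ c) b := fun b => by
      rw [hJ, W_cons hh, Module.End.mul_apply, itc_exp (hB.cyc b) e, mul_sum]
      simp only [Matrix.mulVec, dotProduct, hη, mul_assoc]
    have h2 : ∀ a, ∑ b, X.η⁻¹ a b * (X.η *ᵥ c) b = c a := fun a => by
      have h3 : X.η⁻¹ *ᵥ (X.η *ᵥ c) = c := by
        rw [Matrix.mulVec_mulVec, Matrix.nonsing_inv_mul _ hU, Matrix.one_mulVec]
      exact congrFun h3 a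
    simp only [h1, mul_assoc, ← mul_sum, h2]
    rw [hJ, W_append hh, Module.End.mul_apply, ← wd_W e₁ l₁,
      itc_exp (W_closed hh0 hB.cyc e₁ l₁) e, mul_sum]
    refine sum_congr rfl fun a _ => ?_
    rw [hJ, ← add_zero e₁, W_append hh, wd_W, add_zero, mul_assoc]
    simp [W, wd_one]
  · have h1 := sum_ty hB hφ fun _ => 1
    rw [hr, mul_comm, ← gb]
    simpa only [P269A.Coh.str, P269A.Coh.deg, mul_one] using h1
  · have h1 := sum_ty hB hφ fun k => ((k : ℂ) - d / 2) ^ 2
    rw [hr, mul_comm, ← lw, ← h1]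
    simp only [P269A.Coh.str, P269A.Coh.deg, P269A.Coh.μ, hr]

end Vale.Agent.P269HD
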