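import Vale.Agent.P269HD.Wrap
import Vale.Agent.P269HP.Asm
import Vale.Agent.P269HA.Anc

/-!
# P269, block H: the collector
-/

open scoped Manifold ContDiff Topology
open Vale.Agent.P272.K Vale.Agent.P269H Vale.Agent.P269HP
open Vale.Agent.P269F (intg)

noncomputable section

namespace Vale.Agent.P269HD

/-- **H7**: the degree of a complete intersection -/
def DEG : Prop := ∀ (r c : ℕ) (M : Type) [TopologicalSpace M] [ChartedSpace (Cm r) M]
  [IsManifold 𝓘(ℂ, Cm r) ω M] [T2Space M] [CompactSpace M] [ConnectedSpace M] (X : CI r c M),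
  intg (X.H ^ r) = ∏ j, (X.dg j : ℂ)

/-- **block H** -/
theorem cohOK_of (hP : PAS) (hK : KOS) (hB : BUN) (hD : DEG) {r c : ℕ} {M : Type}
    [TopologicalSpace M] [ChartedSpace (Cm r) M] [IsManifold 𝓘(ℂ, Cm r) ω M] [T2Space M]
    [CompactSpace M] [ConnectedSpace M] (X : CI r c M) {ι : Type} [Fintype ι] [DecidableEq ι]
    (B : P269H.Bas r M ι) (hr : 1 ≤ r) : P269A.CohOK (X.coh B) := by
  obtain ⟨w, hw, -⟩ := ex_kah X
  have h := gb_lw P269HA.anc hP hK hB X hr hw (bas_B B) (pure_B B)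
  exact cohOK_ci X B (hD r c M X) h.1 h.2

end Vale.Agent.P269HD
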