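import Vale.Agent.P269HD.Om
import Vale.Agent.P269HD.Ring
import Vale.Agent.P269FB.Glb

/-!
# P269, block H: the interface `CohOK` for a complete intersection
-/

set_option linter.unusedSectionVars false

open scoped Manifold ContDiff Topology Matrix
open Filter Finset
open Vale.Agent.P272.K Vale.Agent.P281Z.Hg Vale.Agent.P275MC Vale.Agent.P269H Vale.Agent.P269FB
open Vale.Agent.P269F (IsForm intg)

noncomputable section

namespace Vale.Agent.P269HD

variable {r c : ℕ} {M : Type} [TopologicalSpace M] [ChartedSpace (Cm r) M]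
  [IsManifold 𝓘(ℂ, Cm r) ω M] [T2Space M] [CompactSpace M] (X : CI r c M)

/-- the hyperplane class of the statement is the form `hS` -/
theorem rel_H : Rel X.H (hS X) := fun e x he => by
  have h1 := Classical.epsilon_spec (p := fun i => (X.pt (e.symm (e x))).rep i ≠ 0) (ex_U X _)
  rw [CI.H]
  generalize Classical.epsilon (fun i => (X.pt (e.symm (e x))).rep i ≠ 0) = i at h1 ⊢
  have h2 : x ∈ U X i := by rwa [he.left_inv] at h1
  have h3 : (fun w => Real.log (‖(X.pt (e.symm w)).rep i‖ ^ 2 / ∑ a, ‖(X.pt (e.symm w)).rep a‖ ^ 2))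
      =ᶠ[𝓝 (e x)] fun w => (-1) * pot X i (e.symm w) :=
    (U_ev he h2).mono fun w hw => by simp only [fs_eq hw, neg_one_mul]
  have h4 := (contDiffAt_const (c := (-1 : ℝ)).mul (pot_sm he h2)).congr_of_eventuallyEq h3
  rw [ph_c1 (Complex.ofRealCLM.contDiff.contDiffAt.comp _ h4), cHess_congr h3,
    cHess_const_mul _ ((pot_sm he h2).of_le (by norm_cast)), hS_vl he h2, P280Z.Co.Ps.Lw_smul]
  simp [Matrix.neg_mulVec]

theorem isForm_H : IsForm X.H := (rel_H X).isForm

theorem closed_H : Closed X.H := (rel_H X).closed_iff.2 (hS_closed X)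

theorem ty_H : ∀ e ∈ atlas (Cm r) M, ∀ x ∈ e.source, P269F.Ty 1 1 (X.H e (e x)) :=
  (rel_H X).ty_iff.2 (hS_pure X)

variable {ι : Type} [Fintype ι] (B : P269H.Bas r M ι)

/-- the smooth forms of a basis -/
def sfB (a : ι) : SF r M := (ex_rel (B.form a)).choose

theorem rel_B (a : ι) : Rel (B.φ a) (sfB B a) := (ex_rel (B.form a)).choose_spec

theorem pure_B (a : ι) : Pure (B.p a) (B.q a) (sfB B a) := (rel_B B a).ty_iff.1 (B.ty a)

theorem rel_sum (s : ι → ℂ) : Rel (∑ a, s a • B.φ a) (∑ a, s a • sfB B a) :=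
  Rel.sum _ fun a _ => (rel_B B a).smul _

theorem bas_B : Bas (dd r M) (sfB B) := by
  refine ⟨fun a => (rel_B B a).closed_iff.1 (B.closed a), fun s y e a => congrFun
    (B.ind s ((rel_sum B s).exact_iff.2 ⟨y, e⟩)) a, fun z hz => ?_⟩
  obtain ⟨s, hs⟩ := B.span (fm z) (isForm_fm z) ((rel_fm z).closed_iff.2 hz)
  obtain ⟨y, hy⟩ := ((rel_fm z).sub (rel_sum B s)).exact_iff.1 hs
  exact ⟨s, y, by rw [← hy, add_sub_cancel]⟩

theorem one_B : sfB B B.o = one r M := (B.one ▸ rel_B B B.o).uniq rel_one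

theorem J_eq (e : ℕ) (l : List ι) :
    (X.coh B).J e l = kap r * itc r M (W (hS X) (sfB B) e l (one r M)) :=
  ((rel_H X).pow e (Rel.prod (rel_B B) l)).intg

/-- the numbers `χ (Ω ^ k)` -/
def oB (k : ℕ) : ℂ := ∑ a with B.p a = k, (-1 : ℂ) ^ B.q a

theorem oB_big {k : ℕ} (hk : r < k) : oB B k = 0 := (bas_B B).o_big (pure_B B) hk

include X in
/-- **H6 for a basis of the statement** -/
theorem oB_chi (k : ℕ) {T : Type*} [AddCommGroup T] [Module ℂ T] {D σ : Module.End ℂ T}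
    (hσ : P275FM.Ch D D σ) {i : T →ₗ[ℂ] SF r M} (hi : Function.Injective i)
    (hD : ∀ t, P275FM.dlb r M (i t) = i (D t))
    (hr : ∀ u, P275AR.ty r M k u = u ↔ ∃ t, i t = u) {s : ℂ}
    (hs : ∀ t, i (σ t) = s • pr r M (i t)) : FiniteDimensional ℂ (P275FM.Coh D) ∧
      LinearMap.trace ℂ _ (P275FM.Coh.map σ hσ) = s * (-1) ^ k * oB B k :=
  (ex_kah X).elim fun _ hw => (bas_B B).chi hw.1 (pure_B B) k hσ hi hD hr hs

theorem γ_zero : X.γ 0 = 1 := by
  simp [CI.γ, PowerSeries.coeff_zero_eq_constantCoeff, map_prod]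

/-- **block H** from the degree and the two identities for the numbers `χ (Ω ^ k)` -/
theorem cohOK_ci [DecidableEq ι] [PreconnectedSpace M] {D : ℂ} (deg : intg (X.H ^ r) = D)
    (gb : ∑ k ∈ range (r + 1), (-1) ^ k * oB B k = D * X.γ r)
    (lw : ∑ k ∈ range (r + 1), (-1) ^ k * ((k : ℂ) - r / 2) ^ 2 * oB B k =
      D * (r * X.γ r / 12 + X.γ 1 * X.γ (r - 1) / 6)) : P269A.CohOK (X.coh B) := by
  obtain ⟨w, hw, -⟩ := ex_kah X
  have h1 : (X.coh B).J r [] = D := by
    rw [← deg]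
    simp only [CI.coh, List.map_nil, List.prod_nil, mul_one]
  exact cohOK hw (X.coh B) rfl (bas_B B) (pure_B B) (one_B B) (hS_pure X) (hS_closed X) kap_ne
    (J_eq X B) (γ_zero X) (h1 ▸ gb) (h1 ▸ lw)

end Vale.Agent.P269HD
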